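import Mathlib.Analysis.SpecialFunctions.Pow.Real
import Mathlib.Data.Int.Interval
import Vale.Agent.P016.Defs
import Vale.Agent.P016.ConstDef

/-!
# P016: the parts of the combined theorem

Each definition below is one part of the theorem, spelled out; `artinCount a x` is `N_a(x)`,
`artinConst` is Artin's constant `∏ (1 - 1/(p(p-1)))` and `artinMain x` is the main term
`∑_{p ≤ x} φ(p-1)/(p-1)`.
-/

namespace Vale.Agent.P016.H421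

open Vale.Agent.P016

open Classical in
/-- One `x` at a time: the asymptotic `N_a(x) ~ A x / log x` for all but
`y exp (-c u log u)` of the integers `|a| ≤ y`, where `u = log (min (y, x)) / log log x` and
`y ≥ (log x) ^ K`. -/
def AlmostAllIntegers : Prop :=
  ∀ δ : ℝ, 0 < δ →
    ∃ K c : ℝ, 0 < c ∧ ∃ x₀ : ℕ, ∀ x : ℕ, x₀ ≤ x → ∀ y : ℕ, (Real.log x) ^ K ≤ y →
    (((Finset.Icc (-(y : ℤ)) (y : ℤ)).filter (fun a : ℤ =>
      δ * (x / Real.log x) <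
        |(artinCount a x : ℝ) - artinConst * (x / Real.log x)|)).card : ℝ) ≤
    y * Real.exp (-(c * ((Real.log (min (y : ℝ) x) / Real.log (Real.log x)) *
      Real.log (Real.log (min (y : ℝ) x) / Real.log (Real.log x)))))

open Classical in
/-- The same with the exact main term `M(x) = ∑_{p ≤ x} φ(p-1)/(p-1)` and an error which saves any
given power of the logarithm. -/
def AlmostAllIntegersLogSaving : Prop :=
  ∀ δ D : ℝ, 0 < δ → 0 ≤ D →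
    ∃ K c : ℝ, 0 < c ∧ ∃ x₀ : ℕ, ∀ x : ℕ, x₀ ≤ x → ∀ y : ℕ, (Real.log x) ^ K ≤ y →
    (((Finset.Icc (-(y : ℤ)) (y : ℤ)).filter (fun a : ℤ =>
      δ * artinMain x / (Real.log x) ^ D < |(artinCount a x : ℝ) - artinMain x|)).card : ℝ) ≤
    y * Real.exp (-(c * ((Real.log (min (y : ℝ) x) / Real.log (Real.log x)) *
      Real.log (Real.log (min (y : ℝ) x) / Real.log (Real.log x)))))

open Classical in
/-- One `x` at a time: bases `a = m q` with `q ≤ Y` prime; few exceptions as soon as `Y` exceeds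
`(log x) ^ (2 + ε)`. -/
def AlmostAllPrimeBases : Prop :=
  ∀ κ δ D : ℝ, 0 < κ → 0 < δ → 0 ≤ D →
    ∃ c : ℝ, 0 < c ∧ ∃ x₀ : ℕ, ∀ x : ℕ, x₀ ≤ x →
      ∀ m : ℤ, m ≠ 0 → (m.natAbs.primeFactors.card : ℝ) ≤ Real.sqrt x → ∀ Y : ℕ,
      (((Finset.range (Y + 1)).filter (fun q : ℕ => q.Prime ∧
        δ * artinMain x / (Real.log x) ^ D <
          |(artinCount (m * q) x : ℝ) - artinMain x|)).card : ℝ) ≤
      (Y : ℝ) ^ (1 / 2 + κ) * (Real.log x) ^ (1 + 2 * D + κ) + Y * (x : ℝ) ^ (-c)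

open Classical in
/-- One `x` at a time: the integers `|a| ≤ y` with a prime factor `> z`. -/
def AlmostAllLargeFactor : Prop :=
  ∀ κ δ D : ℝ, 0 < κ → 0 < δ → 0 ≤ D →
    ∃ c : ℝ, 0 < c ∧ ∃ x₀ : ℕ, ∀ x : ℕ, x₀ ≤ x →
      ∀ z : ℝ, 1 ≤ z → ∀ y : ℕ,
      (((Finset.Icc (-(y : ℤ)) (y : ℤ)).filter (fun a : ℤ => a ≠ 0 ∧
        (∃ q : ℕ, q.Prime ∧ (q : ℤ) ∣ a ∧ z < q) ∧
        δ * artinMain x / (Real.log x) ^ D <
          |(artinCount a x : ℝ) - artinMain x|)).card : ℝ) ≤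
      y * (z ^ (-(1 / 2) + κ) * (Real.log x) ^ (1 + 2 * D + κ) + (x : ℝ) ^ (-c))

open Classical in
/-- All `x` at once: for all but `δ y` of the integers `|a| ≤ y` the asymptotic holds, up to
`δ x / log x`, simultaneously for all `x ≥ X₀` with `(log x) ^ K ≤ y`. -/
def AllXIntegers : Prop :=
  ∀ δ : ℝ, 0 < δ → ∃ K X₀ : ℕ, ∀ y : ℕ,
    (((Finset.Icc (-(y : ℤ)) (y : ℤ)).filter (fun a : ℤ => ∃ x : ℕ, X₀ ≤ x ∧
      (Real.log x) ^ K ≤ y ∧ δ * (x / Real.log x) <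
        |(artinCount a x : ℝ) - artinConst * (x / Real.log x)|)).card : ℝ) ≤ δ * y

open Classical in
/-- All `x` at once, prime bases `q ≤ Y` and the range `(log x) ^ (4 + κ) ≤ Y`, with a power saving
in the number of exceptions. -/
def AllXPrimeBases : Prop :=
  ∀ κ δ : ℝ, 0 < κ → 0 < δ → ∃ c : ℝ, 0 < c ∧ ∃ x₀ : ℕ, ∀ X₀ : ℕ, x₀ ≤ X₀ → ∀ Y : ℕ,
    (((Finset.range (Y + 1)).filter (fun q : ℕ => q.Prime ∧ ∃ x : ℕ, X₀ ≤ x ∧
      (Real.log x) ^ (4 + κ) ≤ Y ∧ δ * (x / Real.log x) <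
        |(artinCount q x : ℝ) - artinConst * (x / Real.log x)|)).card : ℝ) ≤
    (Y : ℝ) ^ (1 - c) + Y * (X₀ : ℝ) ^ (-c)

open Classical in
/-- All `x` in `[X₀, X]` at once: the integers `|a| ≤ y` with a prime factor `> z`. -/
def AllXLargeFactor : Prop :=
  ∀ κ δ : ℝ, 0 < κ → 0 < δ → ∃ c : ℝ, 0 < c ∧ ∃ x₀ : ℕ, ∀ X₀ X : ℕ, x₀ ≤ X₀ → X₀ ≤ X →
    ∀ z : ℝ, 1 ≤ z → ∀ y : ℕ,
    (((Finset.Icc (-(y : ℤ)) (y : ℤ)).filter (fun a : ℤ => a ≠ 0 ∧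
      (∃ q : ℕ, q.Prime ∧ (q : ℤ) ∣ a ∧ z < q) ∧ ∃ x : ℕ, X₀ ≤ x ∧ x ≤ X ∧
      δ * (x / Real.log x) <
        |(artinCount a x : ℝ) - artinConst * (x / Real.log x)|)).card : ℝ) ≤
    y * (z ^ (-(1 / 2) + κ) * (Real.log X) ^ (2 + κ) + (X₀ : ℝ) ^ (-c))

open Classical in
/-- Few exceptions among the bases `m l`, `l ≤ (log x) ^ A` prime: all but at most `C s` of them
have `N_{ml}(x) ≥ c s x / (log x) ^ 2`, for every `1 ≤ s ≤ √(log x)`. -/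
def FewBases : Prop :=
  ∃ c C : ℝ, 0 < c ∧ 0 < C ∧ ∀ A : ℝ, 0 < A → ∃ x₀ : ℕ, ∀ x : ℕ, x₀ ≤ x →
    ∀ s : ℝ, 1 ≤ s → s ≤ √(Real.log x) → ∀ m : ℤ, m ≠ 0 → |(m : ℝ)| ≤ (Real.log x) ^ A →
    (((Finset.range (⌊(Real.log x) ^ A⌋₊ + 1)).filter (fun l : ℕ => l.Prime ∧
      ¬ (l : ℤ) ∣ m ∧
      (artinCount (m * l) x : ℝ) < c * s * (x / (Real.log x) ^ 2))).card : ℝ) ≤ C * s

open Classical in
/-- Almost all integers, in arbitrarily slowly growing ranges. -/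
def SlowRanges : Prop :=
  ∀ δ A : ℝ, 0 < δ → 0 < A → ∃ c : ℝ, 0 < c ∧ ∃ y₀ x₀ : ℕ, ∀ x : ℕ, x₀ ≤ x →
    ∀ y : ℕ, y₀ ≤ y → (y : ℝ) ≤ (Real.log x) ^ A →
    (((Finset.Icc (-(y : ℤ)) (y : ℤ)).filter (fun a : ℤ =>
      (artinCount a x : ℝ) <
        c * min ((y : ℝ) ^ c) √(Real.log x) * (x / (Real.log x) ^ 2))).card : ℝ) ≤ δ * y

open Classical in
/-- Prime bases up to `x ^ A`: all but at most `(log x) ^ C` of them have
`N_l(x) ≥ c x / (log x) ^ (3/2)`. -/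
def PolylogExceptions : Prop :=
  ∃ c : ℝ, 0 < c ∧ ∀ A : ℝ, 0 < A → ∃ C : ℝ, 0 < C ∧ ∃ x₀ : ℕ, ∀ x : ℕ, x₀ ≤ x →
    (((Finset.range (⌊(x : ℝ) ^ A⌋₊ + 1)).filter (fun l : ℕ => l.Prime ∧
      (artinCount l x : ℝ) < c * (x / (Real.log x) ^ (3 / 2 : ℝ)))).card : ℝ) ≤
      (Real.log x) ^ C

open Classical in
/-- Prime bases up to `x ^ A`: all but at most `exp (C s)` of them have
`N_l(x) ≥ c s x / (log x) ^ 2`, for every `√(log x) ≤ s ≤ log x / log log x`. -/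
def NearDensity : Prop :=
  ∃ c C : ℝ, 0 < c ∧ 0 < C ∧ ∀ A : ℝ, 0 < A → ∃ x₀ : ℕ, ∀ x : ℕ, x₀ ≤ x →
    ∀ s : ℝ, √(Real.log x) ≤ s → s ≤ Real.log x / Real.log (Real.log x) →
    (((Finset.range (⌊(x : ℝ) ^ A⌋₊ + 1)).filter (fun l : ℕ => l.Prime ∧
      (artinCount l x : ℝ) < c * s * (x / (Real.log x) ^ 2))).card : ℝ) ≤
      Real.exp (C * s)

open Classical in
/-- All `x` in a long range `[X₀, X]` at once, prime bases up to `(log X₀) ^ A`. -/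
def LongRanges : Prop :=
  ∀ A ε : ℝ, 0 < A → 0 < ε → ε < 1 → ∃ C : ℝ, 0 < C ∧ ∃ x₀ : ℕ,
    ∀ X₀ X : ℕ, x₀ ≤ X₀ → X₀ ≤ X →
    (((Finset.range (⌊(Real.log X₀) ^ A⌋₊ + 1)).filter (fun l : ℕ => l.Prime ∧
      ∃ x : ℕ, X₀ ≤ x ∧ x ≤ X ∧ (artinCount l x : ℝ) < (x : ℝ) ^ (1 - ε))).card : ℝ) ≤
      C * (1 + Real.log (Real.log X / Real.log X₀))

open Classical in
/-- Fixed prime bases: at most `C M / δ` primes `l` satisfy, for all large `J`,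
`N_l(2^j) < M 2^j / j^2` for at least `δ J` of the `j < J`. -/
def FixedBases : Prop :=
  ∃ C : ℝ, 0 < C ∧ ∀ M δ : ℝ, 1 ≤ M → 0 < δ → δ ≤ 1 →
    ∀ S : Finset ℕ, (∀ l ∈ S, l.Prime ∧ ∃ J₀ : ℕ, ∀ J : ℕ, J₀ ≤ J →
      δ * J ≤ (((Finset.range J).filter (fun j : ℕ =>
        (artinCount l (2 ^ j) : ℝ) < M * (2 ^ j / (j : ℝ) ^ 2))).card : ℝ)) →
    (S.card : ℝ) ≤ C * M / δ

end Vale.Agent.P016.H421
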